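import Vale.Agent.P220.R2.H481.Flow

/-!
# P244: the flow of a time dependent vector field on the line, and calculus in two variables
-/

open Set Filter Topology Real
open scoped ContDiff NNReal

namespace Vale.Agent.P244Z.Fl

/-! ### Partial derivatives of smooth functions of two variables -/

theorem hasDerivAt_fst {F : ℝ × ℝ → ℝ} {p : ℝ × ℝ} (hF : DifferentiableAt ℝ F p) :
    HasDerivAt (fun x => F (x, p.2)) (fderiv ℝ F p (1, 0)) p.1 := by
  have h1 : HasDerivAt (fun x : ℝ => ((x, p.2) : ℝ × ℝ)) ((1, 0) : ℝ × ℝ) p.1 :=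
    (hasDerivAt_id p.1).prodMk (hasDerivAt_const p.1 p.2)
  exact (hF.hasFDerivAt).comp_hasDerivAt p.1 h1

theorem hasDerivAt_snd {F : ℝ × ℝ → ℝ} {p : ℝ × ℝ} (hF : DifferentiableAt ℝ F p) :
    HasDerivAt (fun t => F (p.1, t)) (fderiv ℝ F p (0, 1)) p.2 := by
  have h1 : HasDerivAt (fun t : ℝ => ((p.1, t) : ℝ × ℝ)) ((0, 1) : ℝ × ℝ) p.2 :=
    (hasDerivAt_const p.2 p.1).prodMk (hasDerivAt_id p.2)
  exact (hF.hasFDerivAt).comp_hasDerivAt p.2 h1

/-- the chain rule along a curve -/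
theorem hasDerivAt_curve {F : ℝ × ℝ → ℝ} {x y : ℝ → ℝ} {x' y' s : ℝ}
    (hF : DifferentiableAt ℝ F (x s, y s)) (hx : HasDerivAt x x' s) (hy : HasDerivAt y y' s) :
    HasDerivAt (fun s => F (x s, y s))
      (deriv (fun a => F (a, y s)) (x s) * x' + deriv (fun b => F (x s, b)) (y s) * y') s := by
  have h1 := (hF.hasFDerivAt).comp_hasDerivAt s (hx.prodMk hy)
  have h2 := (hasDerivAt_fst hF).deriv
  have h3 := (hasDerivAt_snd hF).deriv
  simp only at h2 h3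
  rw [h2, h3]
  have : ((x', y') : ℝ × ℝ) = x' • ((1, 0) : ℝ × ℝ) + y' • ((0, 1) : ℝ × ℝ) := by simp
  rw [this, map_add, map_smul, map_smul, smul_eq_mul, smul_eq_mul, mul_comm x', mul_comm y'] at h1
  exact h1

theorem two_le_inf : (2 : WithTop ℕ∞) ≤ ∞ := by
  rw [show (2 : WithTop ℕ∞) = ((2 : ℕ∞) : WithTop ℕ∞) from rfl]
  exact WithTop.coe_le_coe.2 le_top

theorem hasDerivAt_fst' {γ : ℝ → ℝ × ℝ} {v : ℝ × ℝ} {s : ℝ} (h : HasDerivAt γ v s) :
    HasDerivAt (fun s => (γ s).1) v.1 s :=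
  (ContinuousLinearMap.fst ℝ ℝ ℝ).hasFDerivAt.comp_hasDerivAt s h

theorem hasDerivAt_snd' {γ : ℝ → ℝ × ℝ} {v : ℝ × ℝ} {s : ℝ} (h : HasDerivAt γ v s) :
    HasDerivAt (fun s => (γ s).2) v.2 s :=
  (ContinuousLinearMap.snd ℝ ℝ ℝ).hasFDerivAt.comp_hasDerivAt s h

theorem contDiffAt_d1 {F : ℝ × ℝ → ℝ} {p : ℝ × ℝ} (hF : ContDiffAt ℝ ∞ F p) :
    ContDiffAt ℝ ∞ (fun z : ℝ × ℝ => deriv (fun x => F (x, z.2)) z.1) p := by
  have h1 : ContDiffAt ℝ ∞ (fun z => fderiv ℝ F z ((1, 0) : ℝ × ℝ)) p :=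
    (hF.fderiv_right (m := ∞) (by simp)).clm_apply contDiffAt_const
  refine h1.congr_of_eventuallyEq ?_
  filter_upwards [(hF.of_le (m := 1) (by simp)).eventually (by simp)] with z hz
  exact (hasDerivAt_fst (hz.differentiableAt (by simp))).deriv

theorem contDiffAt_d2 {F : ℝ × ℝ → ℝ} {p : ℝ × ℝ} (hF : ContDiffAt ℝ ∞ F p) :
    ContDiffAt ℝ ∞ (fun z : ℝ × ℝ => deriv (fun t => F (z.1, t)) z.2) p := by
  have h1 : ContDiffAt ℝ ∞ (fun z => fderiv ℝ F z ((0, 1) : ℝ × ℝ)) p :=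
    (hF.fderiv_right (m := ∞) (by simp)).clm_apply contDiffAt_const
  refine h1.congr_of_eventuallyEq ?_
  filter_upwards [(hF.of_le (m := 1) (by simp)).eventually (by simp)] with z hz
  exact (hasDerivAt_snd (hz.differentiableAt (by simp))).deriv

/-- mixed partial derivatives commute -/
theorem d2_d1 {F : ℝ × ℝ → ℝ} {p : ℝ × ℝ} (hF : ContDiffAt ℝ ∞ F p) :
    deriv (fun t => deriv (fun x => F (x, t)) p.1) p.2 =
      deriv (fun x => deriv (fun t => F (x, t)) p.2) p.1 := by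
  have hev : ∀ᶠ z in 𝓝 p, DifferentiableAt ℝ F z := by
    filter_upwards [(hF.of_le (m := 1) (by simp)).eventually (by simp)] with z hz
    exact hz.differentiableAt (by simp)
  have hD : DifferentiableAt ℝ (fderiv ℝ F) p :=
    (hF.fderiv_right (m := 1) (by
      rw [one_add_one_eq_two]
      exact two_le_inf)).differentiableAt (by simp)
  have hsym : IsSymmSndFDerivAt ℝ F p := hF.isSymmSndFDerivAt (by
    rw [minSmoothness_of_isRCLikeNormedField]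
    exact two_le_inf)
  have c1 : Tendsto (fun t : ℝ => ((p.1, t) : ℝ × ℝ)) (𝓝 p.2) (𝓝 p) :=
    (by fun_prop : Continuous fun t : ℝ => ((p.1, t) : ℝ × ℝ)).tendsto' p.2 p rfl
  have c2 : Tendsto (fun x : ℝ => ((x, p.2) : ℝ × ℝ)) (𝓝 p.1) (𝓝 p) :=
    (by fun_prop : Continuous fun x : ℝ => ((x, p.2) : ℝ × ℝ)).tendsto' p.1 p rfl
  have e1 : (fun t => deriv (fun x => F (x, t)) p.1) =ᶠ[𝓝 p.2]
      fun t => fderiv ℝ F (p.1, t) (1, 0) := by
    filter_upwards [c1.eventually hev] with t ht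
    exact (hasDerivAt_fst ht).deriv
  have e2 : (fun x => deriv (fun t => F (x, t)) p.2) =ᶠ[𝓝 p.1]
      fun x => fderiv ℝ F (x, p.2) (0, 1) := by
    filter_upwards [c2.eventually hev] with x hx
    exact (hasDerivAt_snd hx).deriv
  rw [e1.deriv_eq, e2.deriv_eq]
  have g1 : HasDerivAt (fun t => fderiv ℝ F (p.1, t) (1, 0))
      (fderiv ℝ (fderiv ℝ F) p (0, 1) (1, 0)) p.2 := by
    have h1 : HasDerivAt (fun t : ℝ => ((p.1, t) : ℝ × ℝ)) ((0, 1) : ℝ × ℝ) p.2 :=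
      (hasDerivAt_const p.2 p.1).prodMk (hasDerivAt_id p.2)
    have h2 := (hD.hasFDerivAt).comp_hasDerivAt p.2 h1
    simpa using h2.clm_apply (hasDerivAt_const p.2 ((1, 0) : ℝ × ℝ))
  have g2 : HasDerivAt (fun x => fderiv ℝ F (x, p.2) (0, 1))
      (fderiv ℝ (fderiv ℝ F) p (1, 0) (0, 1)) p.1 := by
    have h1 : HasDerivAt (fun x : ℝ => ((x, p.2) : ℝ × ℝ)) ((1, 0) : ℝ × ℝ) p.1 :=
      (hasDerivAt_id p.1).prodMk (hasDerivAt_const p.1 p.2)
    have h2 := (hD.hasFDerivAt).comp_hasDerivAt p.1 h1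
    simpa using h2.clm_apply (hasDerivAt_const p.1 ((0, 1) : ℝ × ℝ))
  rw [g1.deriv, g2.deriv]
  exact hsym.eq _ _

/-! ### Uniqueness -/

theorem exists_Ioo {I : Set ℝ} (hI : IsOpen I) (hc : I.OrdConnected) {s t : ℝ} (hs : s ∈ I)
    (ht : t ∈ I) : ∃ a b, a ∈ I ∧ b ∈ I ∧ s ∈ Ioo a b ∧ t ∈ Ioo a b ∧ Icc a b ⊆ I := by
  have lo : ∀ x ∈ I, ∃ a ∈ I, a < x := fun x hx => by
    obtain ⟨ε, hε, h⟩ := Metric.isOpen_iff.1 hI x hx
    refine ⟨x - ε / 2, h ?_, by linarith⟩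
    rw [Metric.mem_ball, Real.dist_eq, abs_lt]; constructor <;> linarith
  have hi : ∀ x ∈ I, ∃ b ∈ I, x < b := fun x hx => by
    obtain ⟨ε, hε, h⟩ := Metric.isOpen_iff.1 hI x hx
    refine ⟨x + ε / 2, h ?_, by linarith⟩
    rw [Metric.mem_ball, Real.dist_eq, abs_lt]; constructor <;> linarith
  have hmin : min s t ∈ I := by rcases min_choice s t with h | h <;> rw [h] <;> assumption
  have hmax : max s t ∈ I := by rcases max_choice s t with h | h <;> rw [h] <;> assumption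
  obtain ⟨a, ha, ha'⟩ := lo _ hmin
  obtain ⟨b, hb, hb'⟩ := hi _ hmax
  exact ⟨a, b, ha, hb, ⟨ha'.trans_le (min_le_left _ _), (le_max_left _ _).trans_lt hb'⟩,
    ⟨ha'.trans_le (min_le_right _ _), (le_max_right _ _).trans_lt hb'⟩, hc.out ha hb⟩

theorem ode_unique {I : Set ℝ} (hI : IsOpen I) (hc : I.OrdConnected) {W : ℝ × ℝ → ℝ}
    (hW : ContDiffOn ℝ ∞ W (univ ×ˢ I)) {f g : ℝ → ℝ}
    (hf : ∀ t ∈ I, HasDerivAt f (W (f t, t)) t) (hg : ∀ t ∈ I, HasDerivAt g (W (g t, t)) t)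
    {t0 : ℝ} (ht0 : t0 ∈ I) (h0 : f t0 = g t0) : ∀ t ∈ I, f t = g t := by
  intro t ht
  obtain ⟨a, b, -, -, h1, h2, hab⟩ := exists_Ioo hI hc ht0 ht
  have hfc : ContinuousOn f (Icc a b) := fun s hs =>
    (hf s (hab hs)).continuousAt.continuousWithinAt
  have hgc : ContinuousOn g (Icc a b) := fun s hs =>
    (hg s (hab hs)).continuousAt.continuousWithinAt
  obtain ⟨M1, hM1⟩ := isCompact_Icc.exists_bound_of_continuousOn hfc
  obtain ⟨M2, hM2⟩ := isCompact_Icc.exists_bound_of_continuousOn hgc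
  set M := max M1 M2
  have hsub : Icc (-M) M ×ˢ Icc a b ⊆ univ ×ˢ I := prod_mono (subset_univ _) hab
  have hconv : Convex ℝ (Icc (-M) M ×ˢ Icc a b) := (convex_Icc _ _).prod (convex_Icc _ _)
  obtain ⟨K, hK⟩ := LocallyLipschitzOn.exists_lipschitzOnWith_of_compact
    (isCompact_Icc.prod isCompact_Icc)
    (ContDiffOn.locallyLipschitzOn hconv ((hW.mono hsub).of_le (by simp)))
  refine ODE_solution_unique_of_mem_Ioo (v := fun t x => W (x, t)) (s := fun _ => Icc (-M) M)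
    (K := K) (fun s hs => ?_) h1 (fun s hs => ⟨hf s (hab (Ioo_subset_Icc_self hs)), ?_⟩)
    (fun s hs => ⟨hg s (hab (Ioo_subset_Icc_self hs)), ?_⟩) h0 h2
  · refine LipschitzOnWith.of_dist_le_mul fun x hx y hy => ?_
    have := hK.dist_le_mul (x, s) ⟨hx, Ioo_subset_Icc_self hs⟩ (y, s) ⟨hy, Ioo_subset_Icc_self hs⟩
    simpa [Prod.dist_eq] using this
  · have := hM1 s (Ioo_subset_Icc_self hs)
    rw [Real.norm_eq_abs] at this
    exact abs_le.1 (this.trans (le_max_left _ _))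
  · have := hM2 s (Ioo_subset_Icc_self hs)
    rw [Real.norm_eq_abs] at this
    exact abs_le.1 (this.trans (le_max_right _ _))

/-! ### Existence -/

theorem exists_cut {a' a b b' : ℝ} (ha : a' < a) (hb : b < b') :
    ∃ χ : ℝ → ℝ, ContDiff ℝ ∞ χ ∧ (∀ t ∈ Icc a b, χ t = 1) ∧ ∀ t, t ∉ Icc a' b' → χ t = 0 := by
  refine ⟨fun t => smoothTransition ((t - a') / (a - a')) * smoothTransition ((b' - t) / (b' - b)),
    ?_, fun t ht => ?_, fun t ht => ?_⟩
  · exact (smoothTransition.contDiff.comp (by fun_prop)).mul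
      (smoothTransition.contDiff.comp (by fun_prop))
  · have h1 : 1 ≤ (t - a') / (a - a') := by
      rw [le_div_iff₀ (by linarith)]; linarith [ht.1]
    have h2 : 1 ≤ (b' - t) / (b' - b) := by
      rw [le_div_iff₀ (by linarith)]; linarith [ht.2]
    simp only [smoothTransition.one_of_one_le h1, smoothTransition.one_of_one_le h2, mul_one]
  · rw [mem_Icc, not_and_or, not_le, not_le] at ht
    rcases ht with h | h
    · have h1 : (t - a') / (a - a') ≤ 0 := div_nonpos_of_nonpos_of_nonneg (by linarith) (by linarith)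
      simp only [smoothTransition.zero_of_nonpos h1, zero_mul]
    · have h1 : (b' - t) / (b' - b) ≤ 0 := div_nonpos_of_nonpos_of_nonneg (by linarith) (by linarith)
      simp only [smoothTransition.zero_of_nonpos h1, mul_zero]

theorem bdd_of_per {G : Type} [NormedAddCommGroup G] {f : ℝ × ℝ → G} (hf : Continuous f)
    (hper : ∀ p : ℝ × ℝ, f (p + (2 * π, 0)) = f p) {a b : ℝ}
    (h0 : ∀ p : ℝ × ℝ, p.2 ∉ Icc a b → f p = 0) : ∃ C, ∀ p, ‖f p‖ ≤ C := by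
  obtain ⟨C, hC⟩ := ((isCompact_Icc (a := (0 : ℝ)) (b := 2 * π)).prod
    (isCompact_Icc (a := a) (b := b))).exists_bound_of_continuousOn hf.continuousOn
  refine ⟨max C 0, fun p => ?_⟩
  by_cases hp : p.2 ∈ Icc a b
  · have hP : Function.Periodic (fun x => f (x, p.2)) (2 * π) := fun x => by
      simpa using hper (x, p.2)
    obtain ⟨y, hy, hy'⟩ := hP.exists_mem_Ico₀ two_pi_pos p.1
    have : f p = f (y, p.2) := hy'
    rw [this]
    exact (hC (y, p.2) ⟨Ico_subset_Icc_self hy, hp⟩).trans (le_max_left _ _)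
  · rw [h0 p hp, norm_zero]; exact le_max_right _ _

theorem exists_flow_loc {I : Set ℝ} (hI : IsOpen I) (hc : I.OrdConnected) {W : ℝ × ℝ → ℝ}
    (hW : ContDiffOn ℝ ∞ W (univ ×ˢ I)) (hper : ∀ θ, ∀ t ∈ I, W (θ + 2 * π, t) = W (θ, t))
    {a b : ℝ} (ha : a ∈ I) (hb : b ∈ I) (t0 : ℝ) :
    ∃ Θ : ℝ × ℝ → ℝ, ContDiff ℝ ∞ Θ ∧ (∀ r, Θ (r, t0) = r) ∧
      ∀ r, ∀ t ∈ Icc a b, HasDerivAt (fun s => Θ (r, s)) (W (Θ (r, t), t)) t := by
  obtain ⟨a', b', -, -, h1, h2, hab⟩ := exists_Ioo hI hc ha hb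
  obtain ⟨χ, hχ, hχ1, hχ0⟩ := exists_cut h1.1 h2.2
  set f : ℝ × ℝ → ℝ := fun p => χ p.2 * W p with hf
  have hf0 : ∀ p : ℝ × ℝ, p.2 ∉ Icc a' b' → f p = 0 := fun p hp => by
    simp only [hf, hχ0 _ hp, zero_mul]
  have hfev : ∀ p : ℝ × ℝ, p.2 ∉ Icc a' b' → f =ᶠ[𝓝 p] fun _ => 0 := fun p hp => by
    have : (Prod.snd ⁻¹' (Icc a' b')ᶜ : Set (ℝ × ℝ)) ∈ 𝓝 p :=
      (isClosed_Icc.isOpen_compl.preimage continuous_snd).mem_nhds hp
    filter_upwards [this] with z hz using hf0 z hz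
  have hfs : ContDiff ℝ ∞ f := by
    refine contDiff_iff_contDiffAt.2 fun p => ?_
    by_cases hp : p.2 ∈ Icc a' b'
    · exact (hχ.contDiffAt.comp p contDiffAt_snd).mul
        (hW.contDiffAt ((isOpen_univ.prod hI).mem_nhds ⟨mem_univ _, hab hp⟩))
    · exact contDiffAt_const.congr_of_eventuallyEq (hfev p hp)
  have hfper : ∀ p : ℝ × ℝ, f (p + (2 * π, 0)) = f p := fun p => by
    by_cases hp : p.2 ∈ Icc a' b'
    · have := hper p.1 p.2 (hab hp)
      simp only [hf, Prod.snd_add, add_zero]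
      congr 1
      have e : p + (2 * π, 0) = (p.1 + 2 * π, p.2) := by ext <;> simp
      rw [e, this]
    · rw [hf0 p hp, hf0 _ (by simpa using hp)]
  obtain ⟨C, hC⟩ := bdd_of_per hfs.continuous hfper hf0
  obtain ⟨K, hK⟩ := bdd_of_per (f := fderiv ℝ f) (hfs.continuous_fderiv (by simp)) (fun p => by
      have e : (fun z => f (z + (2 * π, 0))) = f := funext hfper
      rw [← fderiv_comp_add_right, e]) (a := a') (b := b') (fun p hp => by
      rw [(hfev p hp).fderiv_eq]; simp)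
  have hlip : LipschitzWith (Real.toNNReal K) f :=
    lipschitzWith_of_nnnorm_fderiv_le (hfs.differentiable (by simp)) fun p => by
      rw [← NNReal.coe_le_coe, coe_nnnorm]
      exact (hK p).trans (Real.le_coe_toNNReal K)
  set Y : ℝ × ℝ → ℝ × ℝ := fun p => (f p, 1) with hY
  have hYs : ContDiff ℝ ∞ Y := hfs.prodMk contDiff_const
  have hYb : ∀ p, ‖Y p‖ ≤ (Real.toNNReal (max C 1) : ℝ≥0) := fun p => by
    refine le_trans ?_ (Real.le_coe_toNNReal _)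
    rw [hY, Prod.norm_def]
    exact max_le_max (hC p) (by simp)
  have hYl : LipschitzWith (Real.toNNReal K) Y := by
    have := hlip.prodMk (LipschitzWith.const' (α := ℝ × ℝ) (1 : ℝ) (K := Real.toNNReal K))
    simpa using this
  obtain ⟨φ, hφ⟩ := Vale.Agent.P220.R2.H481.exists_gf hYs hYb hYl
  have h2nd : ∀ s x, (φ (s, x)).2 = x.2 + s := fun s x => by
    have hd : ∀ s, HasDerivAt (fun s => (φ (s, x)).2 - s) 0 s := fun s => by
      have h := (hasDerivAt_snd' (hφ.deriv s x)).sub (hasDerivAt_id s)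
      simp only [hY, sub_self] at h
      exact h
    have := is_const_of_deriv_eq_zero (fun s => (hd s).differentiableAt) (fun s => (hd s).deriv) s 0
    simp only [hφ.zero, sub_zero] at this
    linarith
  refine ⟨fun p => (φ (p.2 - t0, (p.1, t0))).1, ?_, fun r => by simp [hφ.zero], fun r t ht => ?_⟩
  · exact contDiff_fst.comp (hφ.smooth.comp (by fun_prop))
  · have h := (hasDerivAt_fst' (hφ.deriv (t - t0) (r, t0))).comp_sub_const t t0
    have e : φ (t - t0, (r, t0)) = ((φ (t - t0, (r, t0))).1, t) := by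
      ext
      · rfl
      · simp [h2nd]
    have e2 : (Y (φ (t - t0, (r, t0)))).1 = W ((φ (t - t0, (r, t0))).1, t) := by
      rw [e]; simp only [hY, hf, hχ1 t ht, one_mul]
    rw [e2] at h
    exact h

/-- **The flow of a smooth time dependent periodic field on an open time interval.** -/
theorem exists_flow {I : Set ℝ} (hI : IsOpen I) (hc : I.OrdConnected) {W : ℝ × ℝ → ℝ}
    (hW : ContDiffOn ℝ ∞ W (univ ×ˢ I)) (hper : ∀ θ, ∀ t ∈ I, W (θ + 2 * π, t) = W (θ, t))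
    {t0 : ℝ} (ht0 : t0 ∈ I) :
    ∃ Θ : ℝ × ℝ → ℝ, ContDiffOn ℝ ∞ Θ (univ ×ˢ I) ∧ (∀ r, Θ (r, t0) = r) ∧
      ∀ r, ∀ t ∈ I, HasDerivAt (fun s => Θ (r, s)) (W (Θ (r, t), t)) t := by
  have key : ∀ t : ℝ, ∃ a b : ℝ, ∃ Θ : ℝ × ℝ → ℝ, t ∈ I → (t0 ∈ Ioo a b ∧ t ∈ Ioo a b ∧
      Icc a b ⊆ I ∧ ContDiff ℝ ∞ Θ ∧ (∀ r, Θ (r, t0) = r) ∧
      ∀ r, ∀ t ∈ Icc a b, HasDerivAt (fun s => Θ (r, s)) (W (Θ (r, t), t)) t) := fun t => by
    by_cases ht : t ∈ I
    · obtain ⟨a, b, ha, hb, h1, h2, hab⟩ := exists_Ioo hI hc ht0 ht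
      obtain ⟨Θ, h3, h4, h5⟩ := exists_flow_loc hI hc hW hper ha hb t0
      exact ⟨a, b, Θ, fun _ => ⟨h1, h2, hab, h3, h4, h5⟩⟩
    · exact ⟨0, 0, fun _ => 0, fun h => absurd h ht⟩
  choose a b Θ hΘ using key
  have agree : ∀ t ∈ I, ∀ s ∈ Ioo (a t) (b t), ∀ r, Θ s (r, s) = Θ t (r, s) := by
    intro t ht s hs r
    obtain ⟨h1, -, h3, -, h5, h6⟩ := hΘ t ht
    obtain ⟨k1, k2, k3, -, k5, k6⟩ := hΘ s (h3 (Ioo_subset_Icc_self hs))
    have hsub1 : Ioo (a t) (b t) ∩ Ioo (a s) (b s) ⊆ Icc (a t) (b t) :=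
      fun x hx => Ioo_subset_Icc_self hx.1
    have hsub2 : Ioo (a t) (b t) ∩ Ioo (a s) (b s) ⊆ Icc (a s) (b s) :=
      fun x hx => Ioo_subset_Icc_self hx.2
    exact ode_unique (I := Ioo (a t) (b t) ∩ Ioo (a s) (b s)) (isOpen_Ioo.inter isOpen_Ioo)
      (ordConnected_Ioo.inter ordConnected_Ioo)
      (hW.mono (prod_mono subset_rfl (hsub1.trans h3))) (f := fun x => Θ s (r, x))
      (g := fun x => Θ t (r, x)) (fun x hx => k6 r x (hsub2 hx)) (fun x hx => h6 r x (hsub1 hx))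
      ⟨h1, k1⟩ (by simp only [h5, k5]) s ⟨hs, k2⟩
  refine ⟨fun p => Θ p.2 p, fun p hp => ?_, fun r => (hΘ t0 ht0).2.2.2.2.1 r, fun r t ht => ?_⟩
  · obtain ⟨-, h2, -, h4, -, -⟩ := hΘ p.2 hp.2
    refine (h4.contDiffAt.congr_of_eventuallyEq ?_).contDiffWithinAt
    have : (Prod.snd ⁻¹' Ioo (a p.2) (b p.2) : Set (ℝ × ℝ)) ∈ 𝓝 p :=
      (isOpen_Ioo.preimage continuous_snd).mem_nhds h2
    filter_upwards [this] with z hz using agree p.2 hp.2 z.2 hz z.1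
  · obtain ⟨-, h2, -, -, -, h6⟩ := hΘ t ht
    refine (h6 r t (Ioo_subset_Icc_self h2)).congr_of_eventuallyEq ?_
    filter_upwards [isOpen_Ioo.mem_nhds h2] with s hs using agree t ht s hs r

/-- **The flow of a field which is odd under `θ ↦ -θ` and under `θ ↦ π - θ`.** -/
theorem exists_flow_odd {I : Set ℝ} (hI : IsOpen I) (hc : I.OrdConnected) {W : ℝ × ℝ → ℝ}
    (hW : ContDiffOn ℝ ∞ W (univ ×ˢ I)) (hodd : ∀ θ, ∀ t ∈ I, W (-θ, t) = -W (θ, t))
    (hsym : ∀ θ, ∀ t ∈ I, W (π - θ, t) = -W (θ, t)) {t0 : ℝ} (ht0 : t0 ∈ I) :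
    ∃ Θ : ℝ × ℝ → ℝ, ContDiffOn ℝ ∞ Θ (univ ×ˢ I) ∧
      (∀ r, ∀ t ∈ I, HasDerivAt (fun s => Θ (r, s)) (W (Θ (r, t), t)) t) ∧
      (∀ r, ∀ t ∈ I, Θ (-r, t) = -Θ (r, t)) ∧ (∀ r, ∀ t ∈ I, Θ (π - r, t) = π - Θ (r, t)) ∧
      (∀ r ∈ Ioo 0 π, ∀ t ∈ I, Θ (r, t) ∈ Ioo 0 π) ∧
      (∀ r, ∀ t ∈ I, 0 < deriv (fun x => Θ (x, t)) r) ∧
      (∀ r, ∀ t ∈ I, HasDerivAt (fun s => deriv (fun x => Θ (x, s)) r)
        (deriv (fun x => W (x, t)) (Θ (r, t)) * deriv (fun x => Θ (x, t)) r) t) := by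
  have hper : ∀ θ, ∀ t ∈ I, W (θ + 2 * π, t) = W (θ, t) := fun θ t ht => by
    have h1 : ∀ x, W (x + π, t) = W (x, t) := fun x => by
      have := hsym (-x) t ht
      rw [hodd x t ht, neg_neg] at this
      rw [← this]; congr 2; ring
    rw [show θ + 2 * π = θ + π + π by ring, h1, h1]
  obtain ⟨Θ, hs, h0, hd⟩ := exists_flow hI hc hW hper ht0
  have hopen : IsOpen (univ ×ˢ I : Set (ℝ × ℝ)) := isOpen_univ.prod hI
  have hsat : ∀ r, ∀ t ∈ I, ContDiffAt ℝ ∞ Θ (r, t) := fun r t ht =>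
    hs.contDiffAt (hopen.mem_nhds ⟨mem_univ _, ht⟩)
  have hWat : ∀ r, ∀ t ∈ I, ContDiffAt ℝ ∞ W (r, t) := fun r t ht =>
    hW.contDiffAt (hopen.mem_nhds ⟨mem_univ _, ht⟩)
  have h1 : ∀ r, ∀ t ∈ I, Θ (-r, t) = -Θ (r, t) := fun r =>
    ode_unique hI hc hW (f := fun s => Θ (-r, s)) (g := fun s => -Θ (r, s)) (hd (-r))
      (fun t ht => by rw [hodd _ t ht]; exact (hd r t ht).neg) ht0 (by simp only [h0])
  have h2 : ∀ r, ∀ t ∈ I, Θ (π - r, t) = π - Θ (r, t) := fun r =>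
    ode_unique hI hc hW (f := fun s => Θ (π - r, s)) (g := fun s => π - Θ (r, s)) (hd (π - r))
      (fun t ht => by rw [hsym _ t ht]; exact (hd r t ht).const_sub π) ht0 (by simp only [h0])
  have hvar : ∀ r, ∀ t ∈ I, HasDerivAt (fun s => deriv (fun x => Θ (x, s)) r)
      (deriv (fun x => W (x, t)) (Θ (r, t)) * deriv (fun x => Θ (x, t)) r) t := by
    intro r t ht
    have k1 := hasDerivAt_snd ((contDiffAt_d1 (hsat r t ht)).differentiableAt (by simp))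
    have k2 := k1.differentiableAt.hasDerivAt
    have k3 := d2_d1 (hsat r t ht)
    simp only at k2 k3
    rw [k3] at k2
    have k4 : (fun x => deriv (fun s => Θ (x, s)) t) = fun x => W (Θ (x, t), t) :=
      funext fun x => (hd x t ht).deriv
    rw [k4] at k2
    have k5 := (hasDerivAt_fst ((hsat r t ht).differentiableAt (by simp))).differentiableAt.hasDerivAt
    have k6 := (hasDerivAt_fst ((hWat (Θ (r, t)) t ht).differentiableAt
      (by simp))).differentiableAt.hasDerivAt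
    have k7 := HasDerivAt.comp r (h₂ := fun x => W (x, t)) (h := fun x => Θ (x, t)) k6 k5
    have k8 : deriv (fun x => W (Θ (x, t), t)) r =
        deriv (fun x => W (x, t)) (Θ (r, t)) * deriv (fun x => Θ (x, t)) r := k7.deriv
    rw [k8] at k2
    exact k2
  have hpos : ∀ r, ∀ t ∈ I, 0 < deriv (fun x => Θ (x, t)) r := by
    intro r t ht
    have hk : ContDiffOn ℝ ∞
        (fun p : ℝ × ℝ => deriv (fun x => W (x, p.2)) (Θ (r, p.2)) * p.1) (univ ×ˢ I) := by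
      intro p hp
      refine (ContDiffAt.mul ?_ contDiffAt_fst).contDiffWithinAt
      have c1 : ContDiffAt ℝ ∞ (fun z : ℝ × ℝ => ((Θ (r, z.2), z.2) : ℝ × ℝ)) p :=
        (ContDiffAt.comp p (g := Θ) (f := fun z : ℝ × ℝ => ((r, z.2) : ℝ × ℝ)) (hsat r p.2 hp.2)
          (by fun_prop)).prodMk contDiffAt_snd
      exact ContDiffAt.comp p (g := fun z : ℝ × ℝ => deriv (fun x => W (x, z.2)) z.1)
        (f := fun z : ℝ × ℝ => ((Θ (r, z.2), z.2) : ℝ × ℝ)) (contDiffAt_d1 (hWat _ _ hp.2)) c1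
    have hne : ∀ s ∈ I, deriv (fun x => Θ (x, s)) r ≠ 0 := by
      intro s hs' h
      have := ode_unique hI hc hk (f := fun s => deriv (fun x => Θ (x, s)) r) (g := fun _ => 0)
        (fun t ht => hvar r t ht) (fun t _ => by simpa using hasDerivAt_const t (0 : ℝ)) hs' h t0 ht0
      simp only [h0] at this
      simp at this
    have hcont : ContinuousOn (fun s => deriv (fun x => Θ (x, s)) r) I := fun s hs' =>
      (hvar r s hs').continuousAt.continuousWithinAt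
    by_contra hle
    have hle' : deriv (fun x => Θ (x, t)) r ≤ 0 := not_lt.1 hle
    have h1' : (0 : ℝ) ≤ deriv (fun x => Θ (x, t0)) r := by simp [h0]
    obtain ⟨s, hs1, hs2⟩ := hc.isPreconnected.intermediate_value ht ht0 hcont ⟨hle', h1'⟩
    exact hne s hs1 hs2
  refine ⟨Θ, hs, hd, h1, h2, fun r hr t ht => ?_, hpos, hvar⟩
  have hmono : StrictMono fun x => Θ (x, t) := strictMono_of_deriv_pos fun x => hpos x t ht
  have z0 : Θ (0, t) = 0 := by
    have := h1 0 t ht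
    rw [neg_zero] at this
    linarith
  have zπ : Θ (π, t) = π := by
    have := h2 0 t ht
    rw [sub_zero, z0, sub_zero] at this
    exact this
  have m1 := hmono hr.1
  have m2 := hmono hr.2
  simp only [z0, zπ] at m1 m2
  exact ⟨m1, m2⟩

end Vale.Agent.P244Z.Fl
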